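import Vale.Agent.P281.H383.MG.Log
import Vale.Agent.P281.H495.UL.FinC
import Vale.Agent.P281.H64.TW.Fin
import Vale.Agent.P281.H364.V.Neat

/-!
# P281: the theorem on mixed Gauss maps (helper383; T-UR for the class C of helper495, T-LN for the
class C of helper389)
-/

open Set
open Vale.Agent.P281 Vale.Agent.P281.H713.TZ.S
open Vale.Agent.P281.H511.Surf (IsFibration)
open Vale.Agent.P281.H64.Thin (IsThinSet)
open Vale.Agent.P281.H64.StatV (thin_union)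
open Vale.Agent.P281.H64.TW (HasNeatModel)
open Vale.Agent.P281.H64.Gen (NoExc)
open Vale.Agent.P281.H303.StatC (ClassC)
open scoped Manifold ContDiff Topology

noncomputable section

namespace Vale.Agent.P281.H383.MG

theorem VGen.nonempty {p : ℕ} {Y : Type} [TopologicalSpace Y] [ChartedSpace (Cm p) Y] [T2Space Y]
    [CompactSpace Y] [Nonempty Y] [IsManifold 𝓘(ℂ, Cm p) ω Y] {P : Y → Prop} (h : VGen p P) :
    ∃ y, P y := by
  obtain ⟨H, hH, hP⟩ := h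
  have h1 : Dense (⋂ j, (H j)ᶜ) := dense_iInter_of_isOpen_nat (fun j => (hH j).1.isOpen_compl)
    fun j => H383.Gen.dense_compl_thin (hH j)
  obtain ⟨y, hy⟩ := h1.nonempty
  exact ⟨y, hP y fun j => mem_iInter.1 hy j⟩

theorem VGen.and {p : ℕ} {Y : Type} [TopologicalSpace Y] [ChartedSpace (Cm p) Y]
    {P Q : Y → Prop} (h : VGen p P) (h' : VGen p Q) : VGen p fun y => P y ∧ Q y := by
  obtain ⟨H, hH, hP⟩ := h
  obtain ⟨H', hH', hQ⟩ := h'
  obtain ⟨K, hK, hKy⟩ := thin_union hH hH'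
  exact ⟨K, hK, fun y hy => ⟨hP y (hKy y hy).1, hQ y (hKy y hy).2⟩⟩

theorem VGen.mono {p : ℕ} {Y : Type} [TopologicalSpace Y] [ChartedSpace (Cm p) Y]
    {P Q : Y → Prop} (h : VGen p P) (hPQ : ∀ y, P y → Q y) : VGen p Q := by
  obtain ⟨H, hH, hP⟩ := h
  exact ⟨H, hH, fun y hy => hPQ y (hP y hy)⟩

section
variable {p d : ℕ} {X Y : Type} [tX : TopologicalSpace X]
    [cX : ChartedSpace (Cm (p + d)) X] [tY : TopologicalSpace Y] [cY : ChartedSpace (Cm p) Y]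
    {f : X → Y} {Δ : Set X → ℝ}

theorem Ineq.mono {r : ℕ} {a b : WithBot ℕ∞} (h : Ineq (p + d) p d f Δ r b) (hab : a ≤ b) :
    Ineq (p + d) p d f Δ r a :=
  ⟨(add_le_add le_rfl hab).trans h.1, h.2.mono fun _ hy F _ _ i hi hr =>
    (add_le_add le_rfl hab).trans (hy F i hi hr)⟩

/-- the conclusion of T-UR and T-LN, in the letters of the statement -/
theorem ineq_of {r : ℕ} (hf : IsFibration (Cm (p + d)) (Cm p) f Δ)
    (hF : VGen p fun y => ∃ (F : Type) (_ : TopologicalSpace F) (_ : ChartedSpace (Cm d) F)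
      (i : F → X), H511.Surf.IsFibre (Cm (p + d)) (Cm d) f y i)
    (h : ∃ H : ℕ → Set Y, (∀ k, IsThinSet (Cm p) (H k)) ∧ ∀ y, (∀ k, y ∉ H k) →
      ∀ (F : Type) [TopologicalSpace F] [ChartedSpace (Cm d) F] (i : F → X),
        H511.Surf.IsFibre (Cm (p + d)) (Cm d) f y i →
        ((r : ℕ∞) : WithBot ℕ∞) + kodF (p + d) p Δ (id : X → X) f ≤ kodX (Cm (p + d)) Δ ∧
          (kodR (Cm (p + d)) (Cm d) i Δ ≤ ((r : ℕ∞) : WithBot ℕ∞) →
            kodR (Cm (p + d)) (Cm d) i Δ + kodF (p + d) p Δ (id : X → X) f ≤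
              kodX (Cm (p + d)) Δ ∧
            (NoExc (Cm (p + d)) (Cm p) f → H511.Surf.Q1 (Cm (p + d)) (Cm p) (Cm d) f Δ i))) :
    Ineq (p + d) p d f Δ r (kodF (p + d) p Δ (id : X → X) f) := by
  have := hf.compact
  have := hf.connected
  have := hf.hausdorff.2
  have := hf.manifold.2
  have hsurj : Function.Surjective f := fun y => (hf.fibres y).nonempty
  have : CompactSpace Y := hsurj.compactSpace hf.hol.continuous
  have : Nonempty Y := ⟨f (Classical.arbitrary X)⟩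
  have h1 : VGen p fun y => ∀ (F : Type) [TopologicalSpace F] [ChartedSpace (Cm d) F] (i : F → X),
      H511.Surf.IsFibre (Cm (p + d)) (Cm d) f y i →
        ((r : ℕ∞) : WithBot ℕ∞) + kodF (p + d) p Δ (id : X → X) f ≤ kodX (Cm (p + d)) Δ ∧
          (kodR (Cm (p + d)) (Cm d) i Δ ≤ ((r : ℕ∞) : WithBot ℕ∞) →
            kodR (Cm (p + d)) (Cm d) i Δ + kodF (p + d) p Δ (id : X → X) f ≤
              kodX (Cm (p + d)) Δ ∧
            (NoExc (Cm (p + d)) (Cm p) f → H511.Surf.Q1 (Cm (p + d)) (Cm p) (Cm d) f Δ i)) := h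
  obtain ⟨y, ⟨F, _, _, i, hi⟩, hy⟩ := (hF.and h1).nonempty
  exact ⟨(hy F i hi).1, h1.mono fun y hy F _ _ i hi hr => ((hy F i hi).2 hr).1⟩

theorem mix_ineq {r : ℕ} (hd : 0 < d) (hf : IsFibration (Cm (p + d)) (Cm p) f Δ)
    (hX : ClassC (p + d) X) (h : MixRank (p + d) p d f Δ r) :
    Ineq (p + d) p d f Δ r (kodF (p + d) p Δ (id : X → X) f) := by
  obtain ⟨m, q, q₁, N, 𝒟, 𝒟₁, a, a₁, a₂, h𝒟, hr, h⟩ := h
  have hr' := hr.mono fun y hy => RankM.to hy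
  refine ineq_of hf (hr'.mono fun y ⟨F, _, _, _, i, hi, _⟩ => ⟨F, _, _, i, hi⟩) ?_
  rcases h with ⟨h𝒟₁, h0⟩ | ⟨hN, hc, h0⟩
  · obtain ⟨H, hH, h2⟩ := hr'.and (h0.mono fun y hy => RankM.to hy)
    exact H495.UL.turC p d q q₁ m r N X Y f Δ a a₁ a₂ hd hf hX 𝒟 𝒟₁ h𝒟 h𝒟₁ H hH
      (Or.inl fun y hy => (h2 y hy).2) fun y hy => (h2 y hy).1
  · obtain ⟨H, hH, h2⟩ := hr'.and (h0.mono fun y hy => RankN.to hy)
    exact H495.UL.turC p d q q₁ m r N X Y f Δ a a₁ a₂ hd hf hX 𝒟 ∅ h𝒟 (by simp) H hH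
      (Or.inr ⟨hN, hc, fun y hy => (h2 y hy).2⟩) fun y hy => (h2 y hy).1

theorem pl_ineq {r : ℕ} (hd : 0 < d) (hf : IsFibration (Cm (p + d)) (Cm p) f Δ)
    (hX : ClassC (p + d) X) (h : PlRank (p + d) p d f Δ r) :
    Ineq (p + d) p d f Δ r (kodF (p + d) p Δ (id : X → X) f) := by
  obtain ⟨N, 𝒟, a, hN, h𝒟, h0⟩ := h
  have h0' := h0.mono fun y hy => RankN.to hy
  refine ineq_of hf (h0'.mono fun y ⟨F, _, _, i, hi, _⟩ => ⟨F, _, _, i, hi⟩) ?_
  obtain ⟨H, hH, h2⟩ := h0'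
  exact H389.LNC.tlnC p d r N X Y f Δ a hd hN hf hX 𝒟 h𝒟 H hH h2

end

theorem statM {p d r : ℕ} (hd : 0 < d) {X Y : Type} [tX : TopologicalSpace X]
    [cX : ChartedSpace (Cm (p + d)) X] [tY : TopologicalSpace Y] [cY : ChartedSpace (Cm p) Y]
    (f : X → Y) (Δ : Set X → ℝ) (hf : IsFibration (Cm (p + d)) (Cm p) f Δ)
    (hX : ClassC (p + d) X) (h : MixRank (p + d) p d f Δ r ∨ PlRank (p + d) p d f Δ r) :
    Ineq (p + d) p d f Δ r (kodF (p + d) p Δ (id : X → X) f) ∧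
      KapLe (Cm (p + d)) (Cm p) f Δ (kodF (p + d) p Δ (id : X → X) f) ∧
      (p = 1 ∨ HasNeatModel (p + d) p f Δ → Ineq (p + d) p d f Δ r
        (kap (Cm (p + d)) (Cm p) ⟨X, Y, tX, tY, cX, cY, f, Δ⟩)) := by
  have h1 : Ineq (p + d) p d f Δ r (kodF (p + d) p Δ (id : X → X) f) :=
    h.elim (mix_ineq hd hf hX) (pl_ineq hd hf hX)
  exact ⟨h1, H364.Gen.kapLe_of H303.UF.crit H383.Gen.compl H364.Gen.compStmt hf,
    fun hn => h1.mono (H64.TW.kap_le_kodF hf (H364.V.neat_or hf hn.symm))⟩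

end Vale.Agent.P281.H383.MG
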