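import Vale.Agent.P281.H383.MG.Fin
import Vale.Agent.P281.H303.X.Fin

/-!
# P281: the theorem on mixed Gauss maps, with mild exceptional divisors (helper383)
-/

open Set
open Vale.Agent.P281 Vale.Agent.P281.H713.TZ.S
open Vale.Agent.P281.H511.Surf (IsFibration)
open Vale.Agent.P281.H303.StatC (ClassC)
open Vale.Agent.P281.H303.X (HasMildModel)
open scoped Manifold ContDiff Topology

noncomputable section

namespace Vale.Agent.P281.H383.MG

theorem statX {p d r : ℕ} (hd : 0 < d) {X Y : Type} [tX : TopologicalSpace X]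
    [cX : ChartedSpace (Cm (p + d)) X] [tY : TopologicalSpace Y] [cY : ChartedSpace (Cm p) Y]
    (f : X → Y) (Δ : Set X → ℝ) (hf : IsFibration (Cm (p + d)) (Cm p) f Δ)
    (hX : ClassC (p + d) X) (h : MixRank (p + d) p d f Δ r ∨ PlRank (p + d) p d f Δ r) :
    Ineq (p + d) p d f Δ r (kodF (p + d) p Δ (id : X → X) f) ∧
      KapLe (Cm (p + d)) (Cm p) f Δ (kodF (p + d) p Δ (id : X → X) f) ∧
      (p = 1 ∨ HasMildModel (p + d) p f Δ → Ineq (p + d) p d f Δ r
        (kap (Cm (p + d)) (Cm p) ⟨X, Y, tX, tY, cX, cY, f, Δ⟩)) := by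
  obtain ⟨h1, h2, -⟩ := statM hd f Δ hf hX h
  exact ⟨h1, h2, fun hn => h1.mono (H303.X.kap_le_or hf hn)⟩

end Vale.Agent.P281.H383.MG
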