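import Vale.Agent.P281.H383.MG.Stat
import Vale.Agent.P281.H969.TLN.Spec
import Vale.Agent.P281.H511.UL.Spec

/-!
# P281: mixed Gauss maps in terms of primitives (helper383)
-/

open Set Filter
open Vale.Agent.P281 Vale.Agent.P281.H713.TZ.S
open Vale.Agent.P281.H64.StatV (IsPrim coef)
open Vale.Agent.P281.H969.TL (IsUnitF lcoef)
open Vale.Agent.P281.H969.TLN (NGaussRank ncoef)
open Vale.Agent.P281.H511.UL (XGaussRank fcoef)
open scoped Manifold ContDiff Topology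

set_option linter.all false

noncomputable section

namespace Vale.Agent.P281.H383.MG

section
variable {d : ℕ} {F : Type} [TopologicalSpace F] [ChartedSpace (Cm d) F]
  [IsManifold 𝓘(ℂ, Cm d) ω F] {x : F}

theorem chart_hol : ∀ v ∈ (chartAt (Cm d) x).target,
    ContMDiffAt 𝓘(ℂ, Cm d) 𝓘(ℂ, Cm d) ω (chartAt (Cm d) x).symm v := fun v hv =>
  (contMDiffOn_chart_symm (I := 𝓘(ℂ, Cm d)) (n := ω) (x := x)).contMDiffAt
    ((chartAt (Cm d) x).open_target.mem_nhds hv)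

theorem chart_target : ∀ᶠ v in 𝓝 (chartAt (Cm d) x x), v ∈ (chartAt (Cm d) x).target :=
  (chartAt (Cm d) x).open_target.mem_nhds ((chartAt (Cm d) x).map_source (mem_chart_source _ x))

theorem chart_tendsto : Tendsto (chartAt (Cm d) x).symm (𝓝 (chartAt (Cm d) x x)) (𝓝 x) := by
  have := (chart_hol (x := x) _
    ((chartAt (Cm d) x).map_source (mem_chart_source _ x))).continuousAt.tendsto
  rwa [(chartAt (Cm d) x).left_inv (mem_chart_source _ x)] at this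

/-- `φ ∘ χ⁻¹` is differentiable near `χ x`, with the differential of the chain rule -/
theorem diff_prim {φ : F → ℂ} (h : J.HolAt (Cm d) φ x) :
    ∀ᶠ v in 𝓝 (chartAt (Cm d) x x),
      DifferentiableAt ℂ (fun w => φ ((chartAt (Cm d) x).symm w)) v ∧
      ∀ ξ : Cm d, fderiv ℂ (fun w => φ ((chartAt (Cm d) x).symm w)) v ξ =
        J.dif (Cm d) φ ((chartAt (Cm d) x).symm v)
          (mfderiv 𝓘(ℂ, Cm d) 𝓘(ℂ, Cm d) (chartAt (Cm d) x).symm v ξ) := by
  have h1 : ∀ᶠ z in 𝓝 x, ContMDiffAt 𝓘(ℂ, Cm d) 𝓘(ℂ, ℂ) ω φ z :=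
    (contMDiffAt_iff_contMDiffAt_nhds (by simp)).1 h
  filter_upwards [chart_target (x := x), chart_tendsto.eventually h1] with v hv hz
  have h2 := (chart_hol (x := x) v hv).mdifferentiableAt (by simp)
  have h3 := hz.mdifferentiableAt (by simp)
  have h4 : MDifferentiableAt 𝓘(ℂ, Cm d) 𝓘(ℂ, ℂ)
      (fun w => φ ((chartAt (Cm d) x).symm w)) v := h3.comp v h2
  refine ⟨h4.differentiableAt, fun ξ => ?_⟩
  have h5 := mfderiv_comp v h3 h2
  have h6 : mfderiv 𝓘(ℂ, Cm d) 𝓘(ℂ, ℂ) (fun w => φ ((chartAt (Cm d) x).symm w)) v =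
      fderiv ℂ (fun w => φ ((chartAt (Cm d) x).symm w)) v := mfderiv_eq_fderiv
  rw [← h6]
  exact congrArg (fun L => L ξ) h5

/-- logarithmic derivatives -/
theorem diff_log {ℓ u : F → ℂ} (h : J.HolAt (Cm d) ℓ x) (hu : ∀ᶠ z in 𝓝 x, Complex.exp (ℓ z) = u z) :
    ∀ᶠ v in 𝓝 (chartAt (Cm d) x x), ∀ ξ : Cm d,
      fderiv ℂ (fun w => u ((chartAt (Cm d) x).symm w)) v ξ / u ((chartAt (Cm d) x).symm v) =
        fderiv ℂ (fun w => ℓ ((chartAt (Cm d) x).symm w)) v ξ := by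
  filter_upwards [diff_prim h, (chart_tendsto.eventually hu).eventually_nhds] with v h1 h2 ξ
  have h3 : (fun w => u ((chartAt (Cm d) x).symm w)) =ᶠ[𝓝 v]
      fun w => Complex.exp (ℓ ((chartAt (Cm d) x).symm w)) := h2.mono fun w hw => hw.symm
  have h4 : u ((chartAt (Cm d) x).symm v) = Complex.exp (ℓ ((chartAt (Cm d) x).symm v)) :=
    h3.self_of_nhds
  have h5 := h1.1.hasFDerivAt.cexp.fderiv
  rw [h3.fderiv_eq, h4, h5]
  simp only [smul_eq_mul, FunLike.coe_smul, Pi.smul_apply]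
  rw [mul_div_cancel_left₀ _ (Complex.exp_ne_zero _)]

theorem coef_mix {q : ℕ} {ℓ u : Fin q → F → ℂ} {φ : Fin d → F → ℂ}
    {η : Fin d → F → (Cm d →L[ℂ] ℂ)} (c : Fin d → Fin q → ℂ)
    (hℓ : ∀ j, J.HolAt (Cm d) (ℓ j) x) (hu : ∀ j, ∀ᶠ z in 𝓝 x, Complex.exp (ℓ j z) = u j z)
    (hφ : ∀ b, J.HolAt (Cm d) (φ b) x) (hη : ∀ b, ∀ᶠ z in 𝓝 x, η b z = J.dif (Cm d) (φ b) z) :
    ∀ᶠ v in 𝓝 (chartAt (Cm d) x x),
      coef x (fun b z => φ b z + ∑ j, c b j * ℓ j z) v = fcoef u η c x v := by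
  filter_upwards [eventually_all.2 fun j => diff_prim (hℓ j), eventually_all.2 fun j =>
    diff_log (hℓ j) (hu j), eventually_all.2 fun b => diff_prim (hφ b), eventually_all.2 fun b =>
    chart_tendsto.eventually (hη b)] with v h1 h2 h3 h4
  unfold coef fcoef
  congr 1
  ext b k
  simp only [Matrix.of_apply]
  rw [h4 b, ← (h3 b).2, fderiv_fun_add (h3 b).1
    (DifferentiableAt.fun_sum fun j _ => (h1 j).1.const_mul _), fderiv_fun_sum fun j _ =>
    (h1 j).1.const_mul _]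
  simp only [add_apply, FunLike.coe_sum, Finset.sum_apply]
  congr 1
  refine Finset.sum_congr rfl fun j _ => ?_
  rw [h2 j, fderiv_const_mul (h1 j).1]
  rfl

theorem coef_log {ℓ u : Fin d → F → ℂ} (hℓ : ∀ j, J.HolAt (Cm d) (ℓ j) x)
    (hu : ∀ j, ∀ᶠ z in 𝓝 x, Complex.exp (ℓ j z) = u j z) :
    ∀ᶠ v in 𝓝 (chartAt (Cm d) x x),
      coef x ℓ v = lcoef (fun b v => u b ((chartAt (Cm d) x).symm v)) v := by
  filter_upwards [eventually_all.2 fun j => diff_log (hℓ j) (hu j)] with v h2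
  unfold coef lcoef
  congr 1
  ext b k
  simp only [Matrix.of_apply]
  rw [h2 b]

end

variable {n d : ℕ} {X Y : Type} [TopologicalSpace X] [ChartedSpace (Cm n) X]
  [TopologicalSpace Y] {f : X → Y} {𝒟 : Finset (Set X)} {y : Y}

theorem RankM.to {q m r : ℕ} {a : Fin q → Set X → ℤ} (h : RankM n d f 𝒟 a m r y) :
    ∃ (F : Type) (_ : TopologicalSpace F) (_ : T2Space F) (_ : ChartedSpace (Cm d) F)
      (i : F → X), H511.Surf.IsFibre (Cm n) (Cm d) f y i ∧ (∀ x, (i ⁻¹' {x}).encard ≤ m) ∧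
      XGaussRank n d i 𝒟 a r := by
  obtain ⟨F, tF, hT, cF, i, x, ℓ, φ, c, hi, hm, hx, hℓ, hφ, hR⟩ := h
  obtain ⟨g, hg, h0, hs⟩ : ∃ g : Fin (r + 1) → Cm d → ℂ,
      (∀ s v, g s v = coef x (fun b z => φ s b z + ∑ j, c s b j * ℓ j z) v) ∧
      g 0 (chartAt (Cm d) x x) ≠ 0 ∧ Function.Surjective fun (ξ : Cm d) (k : Fin r) =>
        fderiv ℂ (fun v => g k.succ v / g 0 v) (chartAt (Cm d) x x) ξ :=
    ⟨_, fun _ _ => rfl, hR.1, hR.2⟩
  have := hi.manifold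
  choose hℓh u hu hU using hℓ
  choose η hη hηc using fun s b => (hφ s b).2
  have h1 : ∀ s, ∀ᶠ v in 𝓝 (chartAt (Cm d) x x), g s v = fcoef u (η s) (c s) x v := fun s =>
    (coef_mix (c s) hℓh hu (fun b => (hφ s b).1) (hη s)).mono fun v hv => (hg s v).trans hv
  refine ⟨F, tF, hT, cF, i, hi, hm, u, η, c, hU, hηc, x, hx, ?_, ?_⟩
  · rwa [← (h1 0).self_of_nhds]
  · refine Eq.mp (congrArg _ (funext fun ξ => funext fun k => ?_)) hs
    have h2 : (fun v => g k.succ v / g 0 v) =ᶠ[𝓝 (chartAt (Cm d) x x)]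
        fun v => fcoef u (η k.succ) (c k.succ) x v / fcoef u (η 0) (c 0) x v := by
      filter_upwards [h1 k.succ, h1 0] with v h3 h4
      rw [h3, h4]
    rw [h2.fderiv_eq]

theorem RankN.to {r N : ℕ} {a : Fin (r + 1) → Fin N → Fin d → Set X → ℤ}
    (h : RankN n d f 𝒟 a y) :
    ∃ (F : Type) (_ : TopologicalSpace F) (_ : ChartedSpace (Cm d) F)
      (i : F → X), H511.Surf.IsFibre (Cm n) (Cm d) f y i ∧ Function.Injective i ∧
      NGaussRank n N d i 𝒟 a := by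
  obtain ⟨F, _, _, i, x, ℓ, hi, hm, hx, hℓ, hR⟩ := h
  obtain ⟨g, hg, h0, hs⟩ : ∃ g : Fin (r + 1) → Cm d → ℂ,
      (∀ s v, g s v = ∏ j, coef x (ℓ s j) v) ∧
      g 0 (chartAt (Cm d) x x) ≠ 0 ∧ Function.Surjective fun (ξ : Cm d) (k : Fin r) =>
        fderiv ℂ (fun v => g k.succ v / g 0 v) (chartAt (Cm d) x x) ξ :=
    ⟨_, fun _ _ => rfl, hR.1, hR.2⟩
  have := hi.manifold
  choose hℓh u hu hU using hℓ
  have h1 : ∀ s, ∀ᶠ v in 𝓝 (chartAt (Cm d) x x),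
      g s v = ncoef (fun j b v => u s j b ((chartAt (Cm d) x).symm v)) v := fun s =>
    (eventually_all.2 fun j => coef_log (hℓh s j) (hu s j)).mono fun v hv =>
      (hg s v).trans (Finset.prod_congr rfl fun j _ => hv j)
  refine ⟨F, _, _, i, hi, hm, u, hU, x, hx, ?_, ?_⟩
  · rwa [← (h1 0).self_of_nhds]
  · refine Eq.mp (congrArg _ (funext fun ξ => funext fun k => ?_)) hs
    have h2 : (fun v => g k.succ v / g 0 v) =ᶠ[𝓝 (chartAt (Cm d) x x)]
        fun v => ncoef (fun j b v => u k.succ j b ((chartAt (Cm d) x).symm v)) v /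
          ncoef (fun j b v => u 0 j b ((chartAt (Cm d) x).symm v)) v := by
      filter_upwards [h1 k.succ, h1 0] with v h3 h4
      rw [h3, h4]
    rw [h2.fderiv_eq]

end Vale.Agent.P281.H383.MG
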