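import Vale.Agent.P281.H303.TC.Stat

/-!
# P281: definitions for the statement on mixed Gauss maps (helper383; the definitions of helper969,
helper511 and helper495 in the letters of the statement)
-/

open Set
open Vale.Agent.P281 Vale.Agent.P281.H713.TZ.S
open Vale.Agent.P281.H511.Surf (IsFibration IsFibre)
open Vale.Agent.P281.H64.Thin (IsThinSet)
open Vale.Agent.P281.H64.StatV (IsPrim coef)
open scoped Manifold ContDiff Topology

noncomputable section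

namespace Vale.Agent.P281.H383.MG

/-- `P y` holds for the very general points `y` of `Y`: for the points off countably many thin closed
subsets. -/
def VGen (p : ℕ) {Y : Type} [TopologicalSpace Y] [ChartedSpace (Cm p) Y] (P : Y → Prop) : Prop :=
  ∃ H : ℕ → Set Y, (∀ j, IsThinSet (Cm p) (H j)) ∧ ∀ y, (∀ j, y ∉ H j) → P y

/-- `ℓ` is, near `x`, a holomorphic branch of `log u`, where `u` is a meromorphic function on `F` with
divisor `∑_D a D (D|F)`, `D ∈ 𝒟` (off which it is holomorphic, without zeros), for `i : F → X`. -/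
def IsLog (n d : ℕ) {X F : Type} [TopologicalSpace X] [ChartedSpace (Cm n) X]
    [TopologicalSpace F] [ChartedSpace (Cm d) F] (i : F → X) (𝒟 : Finset (Set X))
    (a : Set X → ℤ) (x : F) (ℓ : F → ℂ) : Prop :=
  J.HolAt (Cm d) ℓ x ∧ ∃ u : F → ℂ, (∀ᶠ z in 𝓝 x, Complex.exp (ℓ z) = u z) ∧
    ∀ t, ∀ e : Set X → X → ℂ, (∀ D ∈ 𝒟, J.IsLocalEq (Cm n) D (e D) (i t)) →
      ∃ h : F → ℂ, J.HolAt (Cm d) h t ∧ h t ≠ 0 ∧
        ∀ᶠ s in 𝓝 t, (∀ D ∈ 𝒟, i s ∉ D) → u s = h s * ∏ D ∈ 𝒟, e D (i s) ^ a D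

/-- The map to `ℙ^r` given by the functions `g_0, …, g_r` in the chart of `F` at `x` has rank `r` at
`x`. -/
def RankAt {d r : ℕ} {F : Type} [TopologicalSpace F] [ChartedSpace (Cm d) F] (x : F)
    (g : Fin (r + 1) → Cm d → ℂ) : Prop :=
  g 0 (chartAt (Cm d) x x) ≠ 0 ∧ Function.Surjective fun (ξ : Cm d) (k : Fin r) =>
    fderiv ℂ (fun v => g k.succ v / g 0 v) (chartAt (Cm d) x x) ξ

/-- The number of factors of the `N`-form with the divisors `a` in which `D` occurs. -/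
def cnt {X : Type} {N d : ℕ} (a : Fin N → Fin d → Set X → ℤ) (D : Set X) : ℕ :=
  open scoped Classical in (Finset.univ.filter fun j => ∃ b, a j b D ≠ 0).card

section
variable {X Y : Type} [TopologicalSpace X] [TopologicalSpace Y]

/-- Some connected finite étale covering `F` with at most `m` sheets of the fibre of `f` over `y` has
a mixed Gauss map of rank at least `r` at some point `x`: this is the map to `ℙ^r` given by `r + 1`
products of `d` forms `η + ∑_j c_j du_j / u_j`, where `η` is a closed holomorphic 1-form of `F`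
(`η = dφ` near `x`), `c_j ∈ ℂ`, and `u_j` is a meromorphic function on `F` with divisor
`∑_D a_j D (D|F)`, `D ∈ 𝒟` (`du_j / u_j = dℓ_j` near `x`). -/
def RankM (n d : ℕ) [ChartedSpace (Cm n) X] (f : X → Y) (𝒟 : Finset (Set X)) {q : ℕ}
    (a : Fin q → Set X → ℤ) (m r : ℕ) (y : Y) : Prop :=
  ∃ (F : Type) (_ : TopologicalSpace F) (_ : T2Space F) (_ : ChartedSpace (Cm d) F) (i : F → X)
    (x : F) (ℓ : Fin q → F → ℂ) (φ : Fin (r + 1) → Fin d → F → ℂ)
    (c : Fin (r + 1) → Fin d → Fin q → ℂ), IsFibre (Cm n) (Cm d) f y i ∧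
    (∀ x, (i ⁻¹' {x}).encard ≤ m) ∧ (∀ D ∈ 𝒟, i x ∉ D) ∧ (∀ j, IsLog n d i 𝒟 (a j) x (ℓ j)) ∧
    (∀ s b, IsPrim (d := d) (φ s b) x) ∧
    RankAt x fun s => coef x fun b z => φ s b z + ∑ j, c s b j * ℓ j z

/-- The map of the fibre of `f` over `y` to `ℙ^r` given by the `r + 1` products
`∏_j (du_{s, j, 1} / u_{s, j, 1} ∧ ⋯ ∧ du_{s, j, d} / u_{s, j, d})` (`j < N`, `s ≤ r`) of meromorphic
functions `u_{s, j, b}` with divisors `∑_D a_{s, j, b} D (D|F)`, `D ∈ 𝒟`, has rank at least `r` at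
some point. -/
def RankN (n d : ℕ) [ChartedSpace (Cm n) X] (f : X → Y) (𝒟 : Finset (Set X)) {r N : ℕ}
    (a : Fin (r + 1) → Fin N → Fin d → Set X → ℤ) (y : Y) : Prop :=
  ∃ (F : Type) (_ : TopologicalSpace F) (_ : ChartedSpace (Cm d) F) (i : F → X) (x : F)
    (ℓ : Fin (r + 1) → Fin N → Fin d → F → ℂ), IsFibre (Cm n) (Cm d) f y i ∧
    Function.Injective i ∧ (∀ D ∈ 𝒟, i x ∉ D) ∧
    (∀ s j b, IsLog n d i 𝒟 (a s j b) x (ℓ s j b)) ∧
    RankAt x fun s v => ∏ j, coef x (ℓ s j) v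

/-- The mixed Gauss maps with logarithmic poles along the `D ∈ 𝒟` of (coverings of) the very general
fibres of `f` have rank at least `r`, where `𝒟` is a finite set of components of `Δ`, and those with
`Δ D < 1` are mapped onto `Y`; and some nonzero product of this kind has poles only along components
`D ∈ 𝒟₁` with `Δ D = 1` (this is automatic if all `D ∈ 𝒟` are like this), or some nonzero `N`-form
as in `RankN` has less than `N Δ D` factors in which `D` occurs, for all `D ∈ 𝒟` with `Δ D < 1`. -/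
def MixRank (n p d : ℕ) [ChartedSpace (Cm n) X] [ChartedSpace (Cm p) Y] (f : X → Y)
    (Δ : Set X → ℝ) (r : ℕ) : Prop :=
  ∃ (m q q₁ N : ℕ) (𝒟 𝒟₁ : Finset (Set X)) (a : Fin q → Set X → ℤ) (a₁ : Fin q₁ → Set X → ℤ)
    (a₂ : Fin 1 → Fin N → Fin d → Set X → ℤ),
    (∀ D ∈ 𝒟, Δ D ≠ 0 ∧ (Δ D < 1 → f '' D = univ)) ∧ VGen p (RankM n d f 𝒟 a m r) ∧
    ((∀ D ∈ 𝒟₁, Δ D = 1) ∧ VGen p (RankM n d f 𝒟₁ a₁ m 0) ∨
      0 < N ∧ (∀ D ∈ 𝒟, Δ D < 1 → (cnt (a₂ 0) D : ℝ) < N * Δ D) ∧ VGen p (RankN n d f 𝒟 a₂))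

/-- For some `N > 0` and some `N`-forms as in `RankN`, with at most `N Δ D` factors in which `D`
occurs, for all `D ∈ 𝒟`, where `𝒟` is a finite set of components of `Δ`, the very general fibres have
`RankN`. -/
def PlRank (n p d : ℕ) [ChartedSpace (Cm n) X] [ChartedSpace (Cm p) Y] (f : X → Y)
    (Δ : Set X → ℝ) (r : ℕ) : Prop :=
  ∃ (N : ℕ) (𝒟 : Finset (Set X)) (a : Fin (r + 1) → Fin N → Fin d → Set X → ℤ), 0 < N ∧
    (∀ D ∈ 𝒟, Δ D ≠ 0 ∧ ∀ s, (cnt (a s) D : ℝ) ≤ N * Δ D) ∧ VGen p (RankN n d f 𝒟 a)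

/-- `κ(X, K_X + Δ) ≥ r + k`, and `κ(X, K_X + Δ) ≥ κ(F, K_F + Δ|F) + k` for the very general fibres
`F` of `f`, if `κ(F, K_F + Δ|F) ≤ r`. -/
def Ineq (n p d : ℕ) [ChartedSpace (Cm n) X] [ChartedSpace (Cm p) Y] (f : X → Y)
    (Δ : Set X → ℝ) (r : ℕ) (k : WithBot ℕ∞) : Prop :=
  ((r : ℕ∞) : WithBot ℕ∞) + k ≤ kodX (Cm n) Δ ∧
    VGen p fun y => ∀ (F : Type) [TopologicalSpace F] [ChartedSpace (Cm d) F] (i : F → X),
      IsFibre (Cm n) (Cm d) f y i → kodR (Cm n) (Cm d) i Δ ≤ ((r : ℕ∞) : WithBot ℕ∞) →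
        kodR (Cm n) (Cm d) i Δ + k ≤ kodX (Cm n) Δ

end

end Vale.Agent.P281.H383.MG
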